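import Vale.Agent.P049.H408.Mix
import Vale.Agent.P049.GraphDefsT

/-!
# From the roots of the characteristic polynomial to eigenvectors
-/

namespace Vale.Agent.P049.H408

open Matrix Finset

variable {V : Type*} [Fintype V] [DecidableEq V]

lemma two_sqrt_lt {d : ℕ} (hd : 3 ≤ d) : 2 * √((d : ℝ) - 1) < d := by
  have hd' : (3 : ℝ) ≤ d := by exact_mod_cast hd
  have h1 : √((d : ℝ) - 1) < d / 2 := by
    rw [Real.sqrt_lt' (by linarith)]
    nlinarith
  linarith

omit [Fintype V] [DecidableEq V] in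
lemma isHerm (G : SimpleGraph V) [DecidableRel G.Adj] : (G.adjMatrix ℝ).IsHermitian := by
  rw [Matrix.IsHermitian, conjTranspose_eq_transpose_of_trivial]
  exact G.transpose_adjMatrix

/-- A Ramanujan graph (roots of the characteristic polynomial) has the bilinear bound off `1`. -/
theorem offOne [Nonempty V] {d : ℕ} {G : SimpleGraph V} [DecidableRel G.Adj]
    (h : IsRamanujanUpTo d 0 G) : OffOne (G.adjMatrix ℝ) (2 * √((d : ℝ) - 1)) := by
  obtain ⟨hreg, s, hr, hup, hlow⟩ := h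
  have hs : ∀ μ ∈ s, |μ| ≤ 2 * √((d : ℝ) - 1) := by
    intro μ hμ
    have h5 : s.filter (fun μ => μ < -(2 * √((d : ℝ) - 1))) = 0 :=
      Multiset.card_eq_zero.1 (Nat.le_zero.1 hlow)
    have h6 : ¬ μ < -(2 * √((d : ℝ) - 1)) := fun h => by
      have : μ ∈ s.filter (fun μ => μ < -(2 * √((d : ℝ) - 1))) := Multiset.mem_filter.2 ⟨hμ, h⟩
      rw [h5] at this
      exact absurd this (Multiset.notMem_zero μ)
    exact abs_le.2 ⟨not_lt.1 h6, hup μ hμ⟩
  intro x y hx k
  refine bilin_of (isHerm G) (fun i => ?_) k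
  refine not_seen (isHerm G) (t := {(d : ℝ)}) (s := s) (by rw [hr, Multiset.singleton_add])
    hs (Multiset.nodup_singleton _) (fun _ _ => (1 : ℝ)) ?_ ?_ ?_ i
  · intro τ _ h0
    obtain ⟨v⟩ := ‹Nonempty V›
    exact one_ne_zero (congrFun h0 v)
  · intro τ hτ
    rw [Multiset.mem_singleton.1 hτ, adj_const G hreg]
    funext i; simp
  · intro τ _
    simpa [dotProduct] using hx

/-- eigenvector form -/
theorem eigen_of_offOne {A : Matrix V V ℝ} {lam : ℝ} (hB : OffOne A lam) {μ : ℝ} {v : V → ℝ}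
    (hv : v ≠ 0) (hs : ∑ i, v i = 0) (he : A *ᵥ v = μ • v) : |μ| ≤ lam := by
  have h := hB v v hs 1
  rw [pow_one, he, dotProduct_smul, smul_eq_mul, abs_mul, pow_one] at h
  have h0 : 0 ≤ v ⬝ᵥ v := Finset.sum_nonneg fun i _ => mul_self_nonneg _
  have h1 : 0 < v ⬝ᵥ v := lt_of_le_of_ne h0 fun h => hv (dotProduct_self_eq_zero.1 h.symm)
  rw [Real.mul_self_sqrt h0, abs_of_pos h1] at h
  exact le_of_mul_le_mul_right h h1

end Vale.Agent.P049.H408
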