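import Vale.Agent.P049.H408.Conv

/-!
# Final forms: Mathlib-only consequences of the Ramanujan property on `Fin n`
-/

namespace Vale.Agent.P049.H408

open Matrix Finset

theorem eigen_ram {n d : ℕ} [Nonempty (Fin n)] {G : SimpleGraph (Fin n)} [DecidableRel G.Adj]
    (h : IsRamanujanUpTo d 0 G) (μ : ℝ) (v : Fin n → ℝ) (hv : v ≠ 0) (hs : ∑ i, v i = 0)
    (he : G.adjMatrix ℝ *ᵥ v = μ • v) : |μ| ≤ 2 * √((d : ℝ) - 1) :=
  eigen_of_offOne (offOne h) hv hs he

theorem mixing_ram {n d : ℕ} [Nonempty (Fin n)] {G : SimpleGraph (Fin n)} [DecidableRel G.Adj]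
    (h : IsRamanujanUpTo d 0 G) (S T : Finset (Fin n)) :
    |(#(G.interedges S T) : ℝ) - d * #S * #T / n| ≤
      2 * √((d : ℝ) - 1) * (√(#S - (#S : ℝ) ^ 2 / n) * √(#T - (#T : ℝ) ^ 2 / n)) := by
  have := mixing G h.1 (offOne h) S T
  simpa only [Fintype.card_fin] using this

theorem walks_ram {n d : ℕ} [Nonempty (Fin n)] {G : SimpleGraph (Fin n)} [DecidableRel G.Adj]
    (h : IsRamanujanUpTo d 0 G) (k : ℕ) (x y : Fin n) :
    |({p : G.Walk x y | p.length = k}.ncard : ℝ) - (d : ℝ) ^ k / n| ≤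
      (2 * √((d : ℝ) - 1)) ^ k * (1 - 1 / n) := by
  have := walks G h.1 (offOne h) k x y
  rw [SimpleGraph.adjMatrix_pow_apply_eq_card_walk, Fintype.card_fin] at this
  rwa [← Nat.card_coe_set_eq, Nat.card_eq_fintype_card]

end Vale.Agent.P049.H408
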