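import Vale.Agent.P049.H408.Spec

/-!
# Mixing, walks, independence, colourings and connectivity from the spectral bound
-/

namespace Vale.Agent.P049.H408

open Matrix Finset

variable {V : Type*} [Fintype V] [DecidableEq V]

/-- the bilinear form of the powers of `A` is bounded on vectors of sum zero -/
def OffOne (A : Matrix V V ℝ) (lam : ℝ) : Prop :=
  ∀ x y : V → ℝ, ∑ i, x i = 0 → ∀ k : ℕ,
    |x ⬝ᵥ (A ^ k) *ᵥ y| ≤ lam ^ k * (√(x ⬝ᵥ x) * √(y ⬝ᵥ y))

section general

variable {A : Matrix V V ℝ} {d lam : ℝ}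

lemma pow_const (h1 : A *ᵥ (fun _ => (1 : ℝ)) = fun _ => d) (k : ℕ) :
    (A ^ k) *ᵥ (fun _ => (1 : ℝ)) = fun _ => d ^ k := by
  induction k with
  | zero => simp
  | succ k ih =>
    rw [pow_succ, ← mulVec_mulVec, h1]
    have : (fun _ : V => d) = d • (fun _ : V => (1 : ℝ)) := by funext i; simp
    rw [this, mulVec_smul, ih]
    funext i; simp [pow_succ, mul_comm]

lemma const_dot_pow (hT : Aᵀ = A) (h1 : A *ᵥ (fun _ => (1 : ℝ)) = fun _ => d) (k : ℕ)
    (y : V → ℝ) : (fun _ => (1 : ℝ)) ⬝ᵥ (A ^ k) *ᵥ y = d ^ k * ∑ i, y i := by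
  rw [dotProduct_mulVec, ← mulVec_transpose, transpose_pow, hT, pow_const h1]
  simp [dotProduct, Finset.mul_sum]

/-- **Mixing for functions.** -/
theorem mix_fun [Nonempty V] (hT : Aᵀ = A) (h1 : A *ᵥ (fun _ => (1 : ℝ)) = fun _ => d)
    (hB : OffOne A lam) (k : ℕ) (f g : V → ℝ) :
    |f ⬝ᵥ (A ^ k) *ᵥ g - d ^ k * (∑ i, f i) * (∑ i, g i) / Fintype.card V|
      ≤ lam ^ k * (√(f ⬝ᵥ f - (∑ i, f i) ^ 2 / Fintype.card V)
        * √(g ⬝ᵥ g - (∑ i, g i) ^ 2 / Fintype.card V)) := by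
  set n : ℝ := (Fintype.card V : ℝ) with hn
  have hn0 : n ≠ 0 := by rw [hn]; exact_mod_cast Fintype.card_ne_zero
  set o : V → ℝ := fun _ => 1 with ho
  set u : V → ℝ := f - ((∑ i, f i) / n) • o with hu
  set v : V → ℝ := g - ((∑ i, g i) / n) • o with hv
  have hfo : ∀ f : V → ℝ, f ⬝ᵥ o = ∑ i, f i := fun f => by simp [ho, dotProduct]
  have hof : ∀ f : V → ℝ, o ⬝ᵥ f = ∑ i, f i := fun f => by simp [ho, dotProduct]
  have hsum : ∀ f : V → ℝ, ∑ i, (f - ((∑ i, f i) / n) • o) i = 0 := by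
    intro f
    simp only [Pi.sub_apply, Pi.smul_apply, smul_eq_mul, Finset.sum_sub_distrib, ho, mul_one,
      Finset.sum_const, Finset.card_univ, nsmul_eq_mul]
    rw [← hn]; field_simp; ring
  have hsq : ∀ f : V → ℝ, (f - ((∑ i, f i) / n) • o) ⬝ᵥ (f - ((∑ i, f i) / n) • o)
      = f ⬝ᵥ f - (∑ i, f i) ^ 2 / n := by
    intro f
    rw [dotProduct_sub, dotProduct_smul, hfo, hsum f, smul_zero, sub_zero, sub_dotProduct,
      smul_dotProduct, hof, smul_eq_mul]
    field_simp
  have e1 : f ⬝ᵥ (A ^ k) *ᵥ g - d ^ k * (∑ i, f i) * (∑ i, g i) / n = u ⬝ᵥ (A ^ k) *ᵥ v := by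
    have hov : o ⬝ᵥ (A ^ k) *ᵥ v = 0 := by
      rw [const_dot_pow hT h1 k, hsum g, mul_zero]
    have hfu : f = u + ((∑ i, f i) / n) • o := by rw [hu]; simp
    have hgv : g = v + ((∑ i, g i) / n) • o := by rw [hv]; simp
    have e2 : f ⬝ᵥ (A ^ k) *ᵥ v = u ⬝ᵥ (A ^ k) *ᵥ v := by
      conv_lhs => rw [hfu]
      rw [add_dotProduct, smul_dotProduct, hov]; simp
    have e3 : f ⬝ᵥ (A ^ k) *ᵥ o = d ^ k * ∑ i, f i := by
      rw [pow_const h1 k]
      simp only [dotProduct]
      rw [← Finset.sum_mul, mul_comm]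
    have e4 : f ⬝ᵥ (A ^ k) *ᵥ g
        = u ⬝ᵥ (A ^ k) *ᵥ v + ((∑ i, g i) / n) * (d ^ k * ∑ i, f i) := by
      conv_lhs => rw [hgv]
      rw [mulVec_add, dotProduct_add, mulVec_smul, dotProduct_smul, e2, e3, smul_eq_mul]
    rw [e4]; field_simp; ring
  rw [e1, ← hsq f, ← hsq g]
  exact hB u v (hsum f) k

end general

section graph

variable (G : SimpleGraph V) [DecidableRel G.Adj] {d : ℕ} {lam : ℝ}

omit [DecidableEq V] in
lemma adj_const (hreg : G.IsRegularOfDegree d) :
    G.adjMatrix ℝ *ᵥ (fun _ => (1 : ℝ)) = fun _ => (d : ℝ) := by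
  funext v
  have := G.adjMatrix_mulVec_const_apply_of_regular (a := (1 : ℝ)) hreg (v := v)
  simpa [Function.const] using this

/-- indicator function of a finite set -/
def ind (S : Finset V) : V → ℝ := fun x => if x ∈ S then 1 else 0

lemma ind_dot (S : Finset V) : ind S ⬝ᵥ ind S = #S := by
  simp [ind, dotProduct]

lemma ind_sum (S : Finset V) : ∑ i, ind S i = #S := by simp [ind]

lemma ind_adj (S T : Finset V) :
    ind S ⬝ᵥ (G.adjMatrix ℝ) *ᵥ ind T = #(G.interedges S T) := by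
  rw [SimpleGraph.interedges, Rel.interedges, Finset.card_filter, Finset.sum_product]
  push_cast
  simp only [dotProduct, mulVec, ind, SimpleGraph.adjMatrix_apply]
  rw [← Finset.sum_subset (Finset.subset_univ S)]
  · refine Finset.sum_congr rfl fun x hx => ?_
    simp only [hx, if_true, one_mul]
    rw [← Finset.sum_subset (Finset.subset_univ T)]
    · exact Finset.sum_congr rfl fun y hy => by simp [hy]
    · intro y _ hy; simp [hy]
  · intro x _ hx; simp [hx]

/-- **Expander mixing lemma.** -/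
theorem mixing [Nonempty V] (hreg : G.IsRegularOfDegree d) (hB : OffOne (G.adjMatrix ℝ) lam)
    (S T : Finset V) :
    |(#(G.interedges S T) : ℝ) - d * #S * #T / Fintype.card V|
      ≤ lam * (√(#S - (#S : ℝ) ^ 2 / Fintype.card V) * √(#T - (#T : ℝ) ^ 2 / Fintype.card V)) := by
  have h := mix_fun (G.transpose_adjMatrix (α := ℝ)) (adj_const G hreg) hB 1 (ind S) (ind T)
  simpa only [pow_one, ind_adj, ind_sum, ind_dot] using h

/-- **Number of walks.** -/
theorem walks [Nonempty V] (hreg : G.IsRegularOfDegree d) (hB : OffOne (G.adjMatrix ℝ) lam)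
    (k : ℕ) (x y : V) :
    |((G.adjMatrix ℝ) ^ k) x y - (d : ℝ) ^ k / Fintype.card V|
      ≤ lam ^ k * (1 - 1 / Fintype.card V) := by
  have h := mix_fun (G.transpose_adjMatrix (α := ℝ)) (adj_const G hreg) hB k (Pi.single x 1)
    (Pi.single y 1)
  have hs : ∀ z : V, ∑ i, (Pi.single z (1 : ℝ) : V → ℝ) i = 1 := fun z => by
    simp [Finset.sum_pi_single']
  have hd : ∀ z : V, (Pi.single z (1 : ℝ) : V → ℝ) ⬝ᵥ (Pi.single z (1 : ℝ) : V → ℝ) = 1 :=
    fun z => by simp
  rw [hs, hs, hd, hd, one_pow, mul_one, mul_one] at h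
  have h1 : (Pi.single x (1 : ℝ) : V → ℝ) ⬝ᵥ ((G.adjMatrix ℝ) ^ k) *ᵥ (Pi.single y (1 : ℝ))
      = ((G.adjMatrix ℝ) ^ k) x y := by
    rw [single_one_dotProduct, mulVec_single_one]; rfl
  rw [h1] at h
  have hn : (1 : ℝ) ≤ Fintype.card V := by exact_mod_cast Fintype.card_pos
  have h2 : 0 ≤ 1 - 1 / (Fintype.card V : ℝ) := by
    rw [sub_nonneg, div_le_one (by linarith)]; exact hn
  rwa [Real.mul_self_sqrt h2] at h

/-- walks of prescribed length -/
theorem exists_walk [Nonempty V] (hreg : G.IsRegularOfDegree d)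
    (hB : OffOne (G.adjMatrix ℝ) lam) {k : ℕ}
    (hk : ((Fintype.card V : ℝ) - 1) * lam ^ k < (d : ℝ) ^ k) (x y : V) :
    ∃ p : G.Walk x y, p.length = k := by
  have h := walks G hreg hB k x y
  have hn : (0 : ℝ) < Fintype.card V := by exact_mod_cast Fintype.card_pos
  have h1 : 0 < ((G.adjMatrix ℝ) ^ k) x y := by
    have h2 := (abs_le.1 h).1
    have h3 : lam ^ k * (1 - 1 / (Fintype.card V : ℝ)) < (d : ℝ) ^ k / Fintype.card V := by
      rw [lt_div_iff₀ hn]
      calc lam ^ k * (1 - 1 / (Fintype.card V : ℝ)) * Fintype.card V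
          = ((Fintype.card V : ℝ) - 1) * lam ^ k := by field_simp
        _ < _ := hk
    linarith
  rw [SimpleGraph.adjMatrix_pow_apply_eq_card_walk] at h1
  have h2 : 0 < Fintype.card { p : G.Walk x y | p.length = k } := by exact_mod_cast h1
  obtain ⟨p, hp⟩ := Fintype.card_pos_iff.1 h2
  exact ⟨p, hp⟩

/-- **Hoffman's bound** for independent sets. -/
theorem indep [Nonempty V] (hreg : G.IsRegularOfDegree d) (hB : OffOne (G.adjMatrix ℝ) lam)
    (hl : 0 ≤ lam) {S : Finset V} (hS : G.IsIndepSet S) :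
    (#S : ℝ) * (d + lam) ≤ lam * Fintype.card V := by
  have hn : (0 : ℝ) < Fintype.card V := by exact_mod_cast Fintype.card_pos
  have h := mixing G hreg hB S S
  have h0 : #(G.interedges S S) = 0 := by
    rw [Finset.card_eq_zero, Finset.eq_empty_iff_forall_notMem]
    rintro ⟨a, b⟩ hab
    rw [SimpleGraph.mem_interedges_iff] at hab
    exact hS (Finset.mem_coe.2 hab.1) (Finset.mem_coe.2 hab.2.1) hab.2.2.ne hab.2.2
  have hsn : (#S : ℝ) ≤ Fintype.card V := by exact_mod_cast Finset.card_le_univ S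
  have hs0 : (0 : ℝ) ≤ #S := Nat.cast_nonneg _
  have h2 : 0 ≤ (#S : ℝ) - (#S : ℝ) ^ 2 / Fintype.card V := by
    rw [sub_nonneg, div_le_iff₀ hn]; nlinarith
  rw [h0, Real.mul_self_sqrt h2] at h
  have h3 := (abs_le.1 h).1
  simp only [Nat.cast_zero, zero_sub] at h3
  rcases eq_or_lt_of_le hs0 with hs | hs
  · rw [← hs, zero_mul]
    exact mul_nonneg hl hn.le
  · have h4 : (d : ℝ) * #S * #S / Fintype.card V ≤ lam * (#S - (#S : ℝ) ^ 2 / Fintype.card V) := by
      linarith
    rw [div_le_iff₀ hn] at h4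
    have h5 : lam * (#S - (#S : ℝ) ^ 2 / Fintype.card V) * Fintype.card V
        = lam * (#S * Fintype.card V - (#S : ℝ) ^ 2) := by field_simp
    rw [h5] at h4
    have h6 : (#S : ℝ) * (#S * (d + lam)) ≤ #S * (lam * Fintype.card V) := by nlinarith
    exact le_of_mul_le_mul_left h6 hs

/-- **Hoffman's bound** for colourings. -/
theorem chrom [Nonempty V] (hreg : G.IsRegularOfDegree d) (hB : OffOne (G.adjMatrix ℝ) lam)
    (hl : 0 < lam) {k : ℕ} (hk : G.Colorable k) : 1 + d / lam ≤ (k : ℝ) := by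
  classical
  obtain ⟨C⟩ := hk
  have hn : (0 : ℝ) < Fintype.card V := by exact_mod_cast Fintype.card_pos
  have hsum : (Fintype.card V : ℝ) = ∑ c : Fin k, (#(univ.filter fun x => C x = c) : ℝ) := by
    have := Finset.card_eq_sum_card_fiberwise (s := (univ : Finset V)) (t := (univ : Finset (Fin k)))
      (f := fun x => C x) (fun x _ => Finset.mem_coe.2 (Finset.mem_univ _))
    rw [Finset.card_univ] at this
    rw [this]; push_cast; rfl
  have hind : ∀ c : Fin k, (#(univ.filter fun x => C x = c) : ℝ) * (d + lam)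
      ≤ lam * Fintype.card V := by
    intro c
    refine indep G hreg hB hl.le ?_
    intro a ha b hb _ hab
    have h1 : C a = c := by simpa using ha
    have h2 : C b = c := by simpa using hb
    exact C.valid hab (h1.trans h2.symm)
  have h3 : (Fintype.card V : ℝ) * (d + lam) ≤ k * (lam * Fintype.card V) := by
    rw [hsum, Finset.sum_mul, ← hsum]
    refine (Finset.sum_le_sum fun c _ => hind c).trans ?_
    simp
  have h4 : (d : ℝ) + lam ≤ k * lam := by
    have : (Fintype.card V : ℝ) * (d + lam) ≤ Fintype.card V * (k * lam) := by linarith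
    exact le_of_mul_le_mul_left this hn
  rw [← sub_nonneg]
  have : (k : ℝ) - (1 + d / lam) = (k * lam - (d + lam)) / lam := by field_simp; ring
  rw [this]
  exact div_nonneg (by linarith) hl.le

/-- the graph is connected -/
theorem connected [Nonempty V] (hreg : G.IsRegularOfDegree d) (hB : OffOne (G.adjMatrix ℝ) lam)
    (hl : 0 ≤ lam) (hld : lam < d) : G.Connected := by
  have hd : (0 : ℝ) < d := lt_of_le_of_lt hl hld
  have hr : lam / d < 1 := by rw [div_lt_one hd]; exact hld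
  have hn : (1 : ℝ) ≤ Fintype.card V := by exact_mod_cast Fintype.card_pos
  obtain ⟨k, hk⟩ := exists_pow_lt_of_lt_one (show (0:ℝ) < 1 / Fintype.card V by positivity) hr
  refine { preconnected := fun x y => ?_ }
  have hk' : ((Fintype.card V : ℝ) - 1) * lam ^ k < (d : ℝ) ^ k := by
    rw [div_pow, div_lt_div_iff₀ (by positivity) (by linarith)] at hk
    have : 0 ≤ lam ^ k := pow_nonneg hl k
    nlinarith
  obtain ⟨p, -⟩ := exists_walk G hreg hB hk' x y
  exact ⟨p⟩

/-- edge expansion of every set -/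
theorem expansion [Nonempty V] (hreg : G.IsRegularOfDegree d) (hB : OffOne (G.adjMatrix ℝ) lam)
    (S : Finset V) :
    (d - lam) * #S * #Sᶜ / Fintype.card V ≤ (#(G.interedges S Sᶜ) : ℝ) := by
  have hn : (0 : ℝ) < Fintype.card V := by exact_mod_cast Fintype.card_pos
  have h := (abs_le.1 (mixing G hreg hB S Sᶜ)).1
  have hc : (#Sᶜ : ℝ) = Fintype.card V - #S := by
    rw [Finset.card_compl, Nat.cast_sub (Finset.card_le_univ S)]
  have hsn : (#S : ℝ) ≤ Fintype.card V := by exact_mod_cast Finset.card_le_univ S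
  have hs0 : (0 : ℝ) ≤ #S := Nat.cast_nonneg _
  have e1 : (#S : ℝ) - (#S : ℝ) ^ 2 / Fintype.card V = #S * #Sᶜ / Fintype.card V := by
    rw [hc]; field_simp
  have e2 : (#Sᶜ : ℝ) - (#Sᶜ : ℝ) ^ 2 / Fintype.card V = #S * #Sᶜ / Fintype.card V := by
    rw [hc]; field_simp; ring
  rw [e1, e2, Real.mul_self_sqrt (by positivity)] at h
  have : (d - lam) * #S * #Sᶜ / (Fintype.card V : ℝ)
      = d * #S * #Sᶜ / Fintype.card V - lam * (#S * #Sᶜ / Fintype.card V) := by ring
  rw [this]; linarith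

end graph

end Vale.Agent.P049.H408
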