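import Mathlib

/-!
# Real symmetric matrices: quadratic and bilinear bounds off finitely many eigenvectors
-/

namespace Vale.Agent.P049.H408

open Matrix Finset

variable {V : Type*} [Fintype V] [DecidableEq V]

section spectral

variable {A : Matrix V V ℝ}

/-- the `i`-th eigenvector of `A` as a function -/
noncomputable def ev (hA : A.IsHermitian) (i : V) : V → ℝ := ⇑(hA.eigenvectorBasis i)

lemma ev_mulVec (hA : A.IsHermitian) (i : V) :
    A *ᵥ ev hA i = hA.eigenvalues i • ev hA i := hA.mulVec_eigenvectorBasis i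

lemma parseval (hA : A.IsHermitian) (x y : V → ℝ) :
    x ⬝ᵥ y = ∑ i, (ev hA i ⬝ᵥ x) * (ev hA i ⬝ᵥ y) := by
  have h := hA.eigenvectorBasis.sum_inner_mul_inner (WithLp.toLp 2 x) (WithLp.toLp 2 y)
  have h1 : ∀ u v : EuclideanSpace ℝ V, inner ℝ u v = (WithLp.ofLp u) ⬝ᵥ (WithLp.ofLp v) := by
    intro u v
    rw [EuclideanSpace.inner_eq_star_dotProduct, star_trivial, dotProduct_comm]
  simp only [h1] at h
  rw [← h]
  refine Finset.sum_congr rfl fun i _ => ?_
  rw [dotProduct_comm x]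
  rfl

lemma ev_dot (hA : A.IsHermitian) (i : V) (x : V → ℝ) :
    ev hA i ⬝ᵥ A *ᵥ x = hA.eigenvalues i * (ev hA i ⬝ᵥ x) := by
  have hT : Aᵀ = A := (conjTranspose_eq_transpose_of_trivial A).symm.trans hA.eq
  rw [dotProduct_mulVec, ← mulVec_transpose, hT, ev_mulVec, smul_dotProduct, smul_eq_mul]

lemma ev_dot_pow (hA : A.IsHermitian) (i : V) (k : ℕ) (x : V → ℝ) :
    ev hA i ⬝ᵥ (A ^ k) *ᵥ x = hA.eigenvalues i ^ k * (ev hA i ⬝ᵥ x) := by
  induction k generalizing x with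
  | zero => simp
  | succ k ih =>
    rw [pow_succ, ← mulVec_mulVec, ih, ev_dot]; ring

/-- bilinear bound when the large eigenvalues are not seen -/
theorem bilin_of (hA : A.IsHermitian) {lam : ℝ} {x y : V → ℝ}
    (h : ∀ i, ev hA i ⬝ᵥ x = 0 ∨ |hA.eigenvalues i| ≤ lam) (k : ℕ) :
    |x ⬝ᵥ (A ^ k) *ᵥ y| ≤ lam ^ k * (√(x ⬝ᵥ x) * √(y ⬝ᵥ y)) := by
  rw [parseval hA x, parseval hA x x, parseval hA y y]
  have h1 : |∑ i, (ev hA i ⬝ᵥ x) * (ev hA i ⬝ᵥ (A ^ k) *ᵥ y)|
      ≤ ∑ i, lam ^ k * (|ev hA i ⬝ᵥ x| * |ev hA i ⬝ᵥ y|) := by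
    refine (Finset.abs_sum_le_sum_abs _ _).trans (Finset.sum_le_sum fun i _ => ?_)
    rw [ev_dot_pow, abs_mul, abs_mul, abs_pow]
    rcases h i with h0 | h0
    · rw [h0]; simp
    · have : |hA.eigenvalues i| ^ k ≤ lam ^ k := pow_le_pow_left₀ (abs_nonneg _) h0 k
      calc |ev hA i ⬝ᵥ x| * (|hA.eigenvalues i| ^ k * |ev hA i ⬝ᵥ y|)
          = |hA.eigenvalues i| ^ k * (|ev hA i ⬝ᵥ x| * |ev hA i ⬝ᵥ y|) := by ring
        _ ≤ _ := mul_le_mul_of_nonneg_right this (mul_nonneg (abs_nonneg _) (abs_nonneg _))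
  refine h1.trans ?_
  rw [← Finset.mul_sum]
  by_cases hall : ∀ i, ev hA i ⬝ᵥ x = 0
  · have z1 : ∑ i, |ev hA i ⬝ᵥ x| * |ev hA i ⬝ᵥ y| = 0 :=
      Finset.sum_eq_zero fun i _ => by rw [hall i]; simp
    have z2 : ∑ i, (ev hA i ⬝ᵥ x) * (ev hA i ⬝ᵥ x) = 0 :=
      Finset.sum_eq_zero fun i _ => by rw [hall i]; simp
    rw [z1, z2]; simp
  · push Not at hall
    obtain ⟨i, hi⟩ := hall
    have hlam : 0 ≤ lam := (abs_nonneg _).trans ((h i).resolve_left hi)
    refine mul_le_mul_of_nonneg_left ?_ (pow_nonneg hlam k)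
    have := Real.sum_mul_le_sqrt_mul_sqrt Finset.univ (fun i => |ev hA i ⬝ᵥ x|)
      (fun i => |ev hA i ⬝ᵥ y|)
    simpa only [sq_abs, ← pow_two] using this

/-- In an orthonormal eigenbasis with all large eigenvalues simple, a vector orthogonal to the
corresponding eigenvectors does not see the large eigenvalues. -/
theorem not_seen (hA : A.IsHermitian) {t s : Multiset ℝ} (hr : A.charpoly.roots = t + s)
    {lam : ℝ} (hs : ∀ μ ∈ s, |μ| ≤ lam) (ht : t.Nodup)
    (w : ℝ → V → ℝ) (hw0 : ∀ τ ∈ t, w τ ≠ 0) (hw : ∀ τ ∈ t, A *ᵥ w τ = τ • w τ)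
    {x : V → ℝ} (hx : ∀ τ ∈ t, w τ ⬝ᵥ x = 0) (i : V) :
    ev hA i ⬝ᵥ x = 0 ∨ |hA.eigenvalues i| ≤ lam := by
  classical
  by_cases hi : |hA.eigenvalues i| ≤ lam
  · exact Or.inr hi
  left
  have hroots : Multiset.map hA.eigenvalues Finset.univ.val = t + s := by
    rw [← hr, hA.roots_charpoly_eq_eigenvalues]; rfl
  have hmem : hA.eigenvalues i ∈ t + s := by
    rw [← hroots]; exact Multiset.mem_map_of_mem _ (Finset.mem_univ_val i)
  have hit : hA.eigenvalues i ∈ t := by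
    rcases Multiset.mem_add.1 hmem with h | h
    · exact h
    · exact absurd (hs _ h) hi
  set τ := hA.eigenvalues i with hτ
  have hns : τ ∉ s := fun h => hi (hs _ h)
  have hcount : Multiset.count τ (Multiset.map hA.eigenvalues Finset.univ.val) = 1 := by
    rw [hroots, Multiset.count_add, Multiset.count_eq_one_of_mem ht hit,
      Multiset.count_eq_zero_of_notMem hns]
  have huniq : ∀ j, hA.eigenvalues j = τ → j = i := by
    intro j hj
    rw [Multiset.count_map] at hcount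
    have hc : (Finset.univ.filter fun a => τ = hA.eigenvalues a).card = 1 := hcount
    have h1 : j ∈ Finset.univ.filter fun a => τ = hA.eigenvalues a := by simp [hj]
    have h2 : i ∈ Finset.univ.filter fun a => τ = hA.eigenvalues a := by simp [hτ]
    exact Finset.card_le_one.1 hc.le j h1 i h2
  have hzero : ∀ j, j ≠ i → ev hA j ⬝ᵥ w τ = 0 := by
    intro j hj
    have e1 := ev_dot hA j (w τ)
    rw [hw τ hit, dotProduct_smul, smul_eq_mul] at e1
    have hne : hA.eigenvalues j ≠ τ := fun h => hj (huniq j h)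
    have : (τ - hA.eigenvalues j) * (ev hA j ⬝ᵥ w τ) = 0 := by rw [sub_mul, e1]; ring
    rcases mul_eq_zero.1 this with h | h
    · exact absurd (sub_eq_zero.1 h).symm hne
    · exact h
  have hone : ∀ y : V → ℝ, w τ ⬝ᵥ y = (ev hA i ⬝ᵥ w τ) * (ev hA i ⬝ᵥ y) := by
    intro y
    rw [parseval hA (w τ) y]
    exact Finset.sum_eq_single i (fun j _ hj => by rw [hzero j hj, zero_mul])
      (fun h => absurd (Finset.mem_univ i) h)
  have hne : ev hA i ⬝ᵥ w τ ≠ 0 := by
    intro h0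
    have h2 := hone (w τ)
    rw [h0, zero_mul] at h2
    exact hw0 τ hit (dotProduct_self_eq_zero.1 h2)
  have h3 := hone x
  rw [hx τ hit] at h3
  exact (mul_eq_zero.1 h3.symm).resolve_left hne

end spectral

end Vale.Agent.P049.H408
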